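import Vale.Agent.P111.HM.G

/-!
The Heisenberg theorem for arbitrary systems of vectors (or operators) in arbitrary spaces of
finite cotype: the translation and modulation invariance is produced by averaging over all
translations and all Walsh functions.
-/

namespace Vale.Agent.P111.HM

open Finset Vale.Agent.P111

section L2

variable {X : Type*} [NormedAddCommGroup X] [NormedSpace ℝ X]

/-- Minkowski's inequality for finite sums of nonnegative vectors. -/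
theorem minkowski_finset {p : ℝ} (hp : 1 ≤ p) {n : ℕ} {Γ : Type*} (s : Finset Γ)
    (f : Γ → Fin n → ℝ) (hf : ∀ γ i, 0 ≤ f γ i) :
    (∑ i, (∑ γ ∈ s, f γ i) ^ p) ^ (1 / p) ≤ ∑ γ ∈ s, (∑ i, (f γ i) ^ p) ^ (1 / p) := by
  classical
  have hp0 : 0 < p := by linarith
  induction s using Finset.induction_on with
  | empty =>
    simp only [Finset.sum_empty]
    rw [Real.zero_rpow hp0.ne', Finset.sum_const_zero, Real.zero_rpow (by positivity)]
  | insert a s ha ih =>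
    have h1 := Real.Lp_add_le_of_nonneg (s := (Finset.univ : Finset (Fin n))) hp
      (f := fun i => f a i) (g := fun i => ∑ γ ∈ s, f γ i) (fun i _ => hf a i)
      (fun i _ => Finset.sum_nonneg fun γ _ => hf γ i)
    simp only [Finset.sum_insert ha]
    exact h1.trans (by linarith)

/-- Cotype of `ℓ₂` sums, with the same constant. -/
theorem cotypeWith_pilp {q C : ℝ} (hq : 2 ≤ q) (hC : 0 ≤ C) (hX : CotypeWith q C X)
    (Γ : Type) [Fintype Γ] : CotypeWith q C (PiLp 2 (fun _ : Γ => X)) := by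
  intro n y
  have hq0 : 0 < q := by linarith
  set p : ℝ := q / 2 with hp
  have hp1 : 1 ≤ p := by rw [hp]; linarith
  have hp0 : 0 < p := by linarith
  set S : ℝ := avg fun ε : Fin n → ℤˣ => ‖∑ i, sg (ε i) • y i‖ ^ 2 with hS
  have hS0 : 0 ≤ S := avg_nonneg fun _ => sq_nonneg _
  -- the square of the norm
  have hsq : ∀ i, ‖y i‖ ^ 2 = ∑ γ, ‖y i γ‖ ^ 2 := fun i => PiLp.norm_sq_eq_of_L2 _ (y i)
  have hqp : ∀ t : ℝ, 0 ≤ t → t ^ q = (t ^ 2) ^ p := by
    intro t ht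
    rw [← Real.rpow_natCast, ← Real.rpow_mul ht]
    congr 1
    rw [hp]
    push_cast
    ring
  -- each coordinate
  have hγ : ∀ γ : Γ, (∑ i, (‖y i γ‖ ^ 2) ^ p) ^ (1 / p) ≤
      C ^ 2 * avg fun ε : Fin n → ℤˣ => ‖∑ i, sg (ε i) • y i γ‖ ^ 2 := by
    intro γ
    have h1 := hX n fun i => y i γ
    set T := avg fun ε : Fin n → ℤˣ => ‖∑ i, sg (ε i) • y i γ‖ ^ 2 with hT
    have hT0 : 0 ≤ T := avg_nonneg fun _ => sq_nonneg _
    have h2 : ∑ i, (‖y i γ‖ ^ 2) ^ p = ∑ i, ‖y i γ‖ ^ q :=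
      Finset.sum_congr rfl fun i _ => (hqp _ (norm_nonneg _)).symm
    rw [h2]
    set V := ∑ i, ‖y i γ‖ ^ q with hV
    have hV0 : 0 ≤ V := Finset.sum_nonneg fun i _ => by positivity
    have h3 : V ^ (1 / p) = (V ^ (1 / q)) ^ 2 := by
      rw [← Real.rpow_natCast, ← Real.rpow_mul hV0]
      congr 1
      rw [hp]
      push_cast
      field_simp
    rw [h3]
    calc (V ^ (1 / q)) ^ 2 ≤ (C * T ^ (1 / 2 : ℝ)) ^ 2 := by
          have : 0 ≤ V ^ (1 / q) := by positivity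
          gcongr
      _ = C ^ 2 * T := by rw [mul_pow, ← Real.sqrt_eq_rpow, Real.sq_sqrt hT0]
  -- Minkowski
  have hM : (∑ i, ‖y i‖ ^ q) ^ (1 / p) ≤ C ^ 2 * S := by
    have h1 : ∑ i, ‖y i‖ ^ q = ∑ i, (∑ γ, ‖y i γ‖ ^ 2) ^ p := by
      refine Finset.sum_congr rfl fun i _ => ?_
      rw [hqp _ (norm_nonneg _), hsq]
    rw [h1]
    refine (minkowski_finset hp1 Finset.univ (fun γ i => ‖y i γ‖ ^ 2)
      fun γ i => by positivity).trans ?_
    refine (Finset.sum_le_sum fun γ _ => hγ γ).trans (le_of_eq ?_)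
    rw [← Finset.mul_sum]
    congr 1
    rw [hS, ← H1.avg_finsetSum]
    refine avg_congr fun ε => ?_
    rw [PiLp.norm_sq_eq_of_L2]
    refine Finset.sum_congr rfl fun γ _ => ?_
    congr 2
    rw [WithLp.ofLp_sum, Finset.sum_apply]
    rfl
  set W := ∑ i, ‖y i‖ ^ q with hW
  have hW0 : 0 ≤ W := Finset.sum_nonneg fun i _ => by positivity
  have h4 : W ^ (1 / q) = (W ^ (1 / p)) ^ (1 / 2 : ℝ) := by
    rw [← Real.rpow_mul hW0]
    congr 1
    rw [hp]
    field_simp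
  rw [h4]
  calc (W ^ (1 / p)) ^ (1 / 2 : ℝ) ≤ (C ^ 2 * S) ^ (1 / 2 : ℝ) :=
        Real.rpow_le_rpow (by positivity) hM (by norm_num)
    _ = C * S ^ (1 / 2 : ℝ) := by
        rw [Real.mul_rpow (by positivity) hS0, ← Real.sqrt_eq_rpow, Real.sqrt_sq hC]

end L2

section system

variable {Z X : Type*} [NormedAddCommGroup Z] [NormedSpace ℝ Z] [NormedAddCommGroup X]
  [NormedSpace ℝ X] {I : Type} [Fintype I] [DecidableEq I]

theorem walsh_symmDiff (S T : Finset I) (η : I → ℤˣ) :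
    walsh (symmDiff T S) η = walsh S η * walsh T η := by
  have h : ∀ R : Finset I, walsh R η = ∏ i, if i ∈ R then sg (η i) else 1 := by
    intro R
    rw [Finset.prod_ite_mem, Finset.univ_inter]
    rfl
  rw [h, h, h, ← Finset.prod_mul_distrib]
  refine Finset.prod_congr rfl fun i _ => ?_
  have h1 : sg (η i) * sg (η i) = 1 := sg_mul_self _
  by_cases hS : i ∈ S <;> by_cases hT : i ∈ T <;> simp [Finset.mem_symmDiff, hS, hT, h1]

/-- The map into `L₂(Γ; X)`, `Γ` = translations and Walsh functions. -/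
noncomputable def sysJ (a : (I → ℤˣ) → Z →ₗ[ℝ] X) :
    ((I → ℤˣ) → Z) →ₗ[ℝ] PiLp 2 (fun _ : (I → ℤˣ) × Finset I => X) where
  toFun u := WithLp.toLp 2 fun γ => (√(Fintype.card ((I → ℤˣ) × Finset I) : ℝ))⁻¹ •
    ∑ x, walsh γ.2 x • a (γ.1 * x) (u x)
  map_add' u v := by
    ext γ
    simp only [PiLp.add_apply, Pi.add_apply, map_add, smul_add, Finset.sum_add_distrib]
  map_smul' c u := by
    ext γ
    simp only [PiLp.smul_apply, Pi.smul_apply, map_smul, RingHom.id_apply]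
    rw [smul_comm c (_ : ℝ)⁻¹, Finset.smul_sum (r := c)]
    congr 1
    refine Finset.sum_congr rfl fun x _ => ?_
    rw [smul_comm c]

theorem norm_sq_sysJ (a : (I → ℤˣ) → Z →ₗ[ℝ] X) (u : (I → ℤˣ) → Z) :
    ‖sysJ a u‖ ^ 2 = avg fun g : I → ℤˣ => avg fun S : Finset I =>
      ‖∑ x, walsh S x • a (g * x) (u x)‖ ^ 2 := by
  rw [← avg_prod (fun γ : (I → ℤˣ) × Finset I => ‖∑ x, walsh γ.2 x • a (γ.1 * x) (u x)‖ ^ 2),
    PiLp.norm_sq_eq_of_L2, avg, smul_eq_mul, Finset.mul_sum]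
  refine Finset.sum_congr rfl fun γ _ => ?_
  change ‖(√(Fintype.card ((I → ℤˣ) × Finset I) : ℝ))⁻¹ •
    ∑ x, walsh γ.2 x • a (γ.1 * x) (u x)‖ ^ 2 = _
  rw [norm_smul, mul_pow, norm_inv, inv_pow, Real.norm_of_nonneg (Real.sqrt_nonneg _),
    Real.sq_sqrt (Nat.cast_nonneg _)]

theorem sysJ_trans (a : (I → ℤˣ) → Z →ₗ[ℝ] X) (h : I → ℤˣ) (u : (I → ℤˣ) → Z) :
    ‖sysJ a (fun η => u (h * η))‖ ^ 2 = ‖sysJ a u‖ ^ 2 := by
  rw [norm_sq_sysJ, norm_sq_sysJ, ← avg_comp_equiv (Equiv.mulRight h)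
    (fun g : I → ℤˣ => avg fun S : Finset I => ‖∑ x, walsh S x • a (g * x) (u x)‖ ^ 2)]
  refine avg_congr fun g => avg_congr fun S => ?_
  have hh : h * h = 1 := by
    funext i
    simp
  have h1 : ∑ x, walsh S x • a (g * x) (u (h * x)) =
      walsh S h • ∑ x, walsh S x • a (g * h * x) (u x) := by
    rw [Finset.smul_sum, ← Equiv.sum_comp (Equiv.mulLeft h)]
    refine Finset.sum_congr rfl fun x _ => ?_
    simp only [Equiv.coe_mulLeft]
    rw [walsh_mul, smul_smul, ← mul_assoc h h x, hh, one_mul, mul_assoc]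
  rw [h1, norm_smul, mul_pow]
  have h2 : ‖walsh S h‖ ^ 2 = 1 := by
    rw [Real.norm_eq_abs, sq_abs, sq, walsh_mul_self]
  rw [h2, one_mul]
  simp only [Equiv.coe_mulRight]

theorem sysJ_modul (a : (I → ℤˣ) → Z →ₗ[ℝ] X) (T : Finset I) (u : (I → ℤˣ) → Z) :
    ‖sysJ a (fun η => walsh T η • u η)‖ ^ 2 = ‖sysJ a u‖ ^ 2 := by
  rw [norm_sq_sysJ, norm_sq_sysJ]
  refine avg_congr fun g => ?_
  let e : Finset I ≃ Finset I :=
    { toFun := fun S => symmDiff T S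
      invFun := fun S => symmDiff T S
      left_inv := fun S => by simp
      right_inv := fun S => by simp }
  rw [← avg_comp_equiv e (fun S : Finset I => ‖∑ x, walsh S x • a (g * x) (u x)‖ ^ 2)]
  refine avg_congr fun S => ?_
  congr 2
  refine Finset.sum_congr rfl fun x _ => ?_
  change walsh S x • a (g * x) (walsh T x • u x) = walsh (symmDiff T S) x • a (g * x) (u x)
  rw [walsh_symmDiff, map_smul, smul_smul]

theorem norm_sq_sysJ_dl (a : (I → ℤˣ) → Z →ₗ[ℝ] X) (z : Z) :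
    ‖sysJ a (dl z)‖ ^ 2 = avg fun x : I → ℤˣ => ‖a x z‖ ^ 2 := by
  rw [norm_sq_sysJ]
  refine avg_congr fun g => ?_
  have h1 : ∀ S : Finset I, ‖∑ x, walsh S x • a (g * x) (dl z x)‖ ^ 2 = ‖a g z‖ ^ 2 := by
    intro S
    rw [Finset.sum_eq_single 1]
    · simp [dl, walsh_one]
    · intro x _ hx
      simp [dl, hx]
    · intro h
      exact absurd (Finset.mem_univ _) h
  rw [avg_congr h1, avg_const]

theorem le_of_sq_le_sq {a b : ℝ} (h : a ^ 2 ≤ b ^ 2) (hb : 0 ≤ b) : a ≤ b :=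
  (le_abs_self a).trans (abs_le_of_sq_le_sq h hb)

theorem sysJ_cls {B : ℝ} (hB : 0 ≤ B) {a : (I → ℤˣ) → Z →ₗ[ℝ] X}
    (hlow : ∀ z, ‖z‖ ^ 2 ≤ avg fun x => ‖a x z‖ ^ 2)
    (hup : ∀ z, (avg fun x => ‖a x z‖ ^ 2) ≤ B ^ 2 * ‖z‖ ^ 2) : Cls B (sysJ a) := by
  refine ⟨fun g u => ?_, fun S u => ?_, fun z => ?_, fun z => ?_⟩
  · exact le_of_eq (by
      have := sysJ_trans a g u
      exact (sq_eq_sq₀ (norm_nonneg _) (norm_nonneg _)).mp this)
  · exact le_of_eq (by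
      have := sysJ_modul a S u
      exact (sq_eq_sq₀ (norm_nonneg _) (norm_nonneg _)).mp this)
  · have := hlow z
    rw [← norm_sq_sysJ_dl] at this
    exact le_of_sq_le_sq this (norm_nonneg _)
  · have := hup z
    rw [← norm_sq_sysJ_dl, ← mul_pow] at this
    exact le_of_sq_le_sq this (by positivity)

universe v w

/-- **The Heisenberg theorem for arbitrary systems.**  Let `X` have cotype `q` (constant `C`).
For an arbitrary map `x ↦ a x` from the cube to the linear maps `Z → X` (`Z` `K`-convex in the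
form `LevelBd b Z`, e.g. `Z = ℝ`), normalised in the mean square, the sums
`∑ x, walsh S x • a (g * x) (u x)` over random translations `g` and random Walsh functions
`walsh S` dominate, in `L₂`, every signed sum of the first level coefficients of `u`, with a
constant which does not depend on the dimension of the cube. -/
theorem system (q C B b : ℝ) (hq : 2 ≤ q) (hC : 0 ≤ C) (hB : 1 ≤ B) (hb : 1 ≤ b) :
    ∃ L : ℝ, 1 ≤ L ∧ ∀ (Z : Type v) [NormedAddCommGroup Z] [NormedSpace ℝ Z] (X : Type w)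
      [NormedAddCommGroup X] [NormedSpace ℝ X], LevelBd b Z → CotypeWith q C X →
      ∀ (I : Type) [Fintype I] [DecidableEq I] (a : (I → ℤˣ) → Z →ₗ[ℝ] X),
      (∀ z, ‖z‖ ^ 2 ≤ avg fun x => ‖a x z‖ ^ 2) →
      (∀ z, (avg fun x => ‖a x z‖ ^ 2) ≤ B ^ 2 * ‖z‖ ^ 2) →
      ∀ (θ : I → ℤˣ) (u : (I → ℤˣ) → Z),
        ‖∑ i, sg (θ i) • wc {i} u‖ ^ 2 ≤ L ^ 2 * avg fun g : I → ℤˣ => avg fun S : Finset I =>
          ‖∑ x, walsh S x • a (g * x) (u x)‖ ^ 2 := by
  obtain ⟨L, hL1, hL⟩ := main.{v, w} q C B b hq hC hB hb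
  refine ⟨L, hL1, ?_⟩
  intro Z _ _ X _ _ hZ hX I _ _ a hlow hup θ u
  have hcls := sysJ_cls (by linarith) hlow hup
  have hsum : ∑ i, sg (θ i) • wc {i} u = ∑ i, wc {i} (fun η => u (θ * η)) := by
    refine Finset.sum_congr rfl fun i _ => ?_
    rw [wc_translate, walsh_singleton]
  have h1 := hL Z (PiLp 2 (fun _ : (I → ℤˣ) × Finset I => X)) hZ (cotypeWith_pilp hq hC hX _)
    (Fintype.card I) I (sysJ a) hcls le_rfl (fun η => u (θ * η))
  rw [← hsum] at h1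
  have h2 : ‖sysJ a (fun η => u (θ * η))‖ ^ 2 = ‖sysJ a u‖ ^ 2 := sysJ_trans a θ u
  rw [← norm_sq_sysJ, ← h2, ← mul_pow]
  exact pow_le_pow_left₀ (norm_nonneg _) h1 2

/-- The scalar case: an arbitrary system of vectors in a space of cotype `q`. -/
theorem system_scalar (q C : ℝ) (hq : 2 ≤ q) (hC : 0 ≤ C) :
    ∃ L : ℝ, 1 ≤ L ∧ ∀ (X : Type w) [NormedAddCommGroup X] [NormedSpace ℝ X],
      CotypeWith q C X → ∀ (I : Type) [Fintype I] [DecidableEq I] (a : (I → ℤˣ) → X)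
      (θ : I → ℤˣ) (u : (I → ℤˣ) → ℝ),
        (∑ i, sg (θ i) * wc {i} u) ^ 2 * (avg fun x => ‖a x‖ ^ 2) ≤
          L ^ 2 * avg fun g : I → ℤˣ => avg fun S : Finset I =>
            ‖∑ x, (walsh S x * u x) • a (g * x)‖ ^ 2 := by
  obtain ⟨L, hL1, hL⟩ := system.{0, w} q C 1 1 hq hC le_rfl le_rfl
  refine ⟨L, hL1, ?_⟩
  intro X _ _ hX I _ _ a θ u
  set m : ℝ := avg fun x => ‖a x‖ ^ 2 with hm
  have hm0 : 0 ≤ m := avg_nonneg fun _ => sq_nonneg _
  rcases hm0.eq_or_lt with h0 | h0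
  · rw [← h0, mul_zero]
    exact mul_nonneg (sq_nonneg _) (avg_nonneg fun _ => avg_nonneg fun _ => sq_nonneg _)
  let a' : (I → ℤˣ) → ℝ →ₗ[ℝ] X := fun x => LinearMap.toSpanSingleton ℝ X ((√m)⁻¹ • a x)
  have ha' : ∀ x z, a' x z = z • (√m)⁻¹ • a x := fun x z => rfl
  have hsm : (√m)⁻¹ ^ 2 * m = 1 := by
    rw [inv_pow, Real.sq_sqrt hm0, inv_mul_cancel₀ h0.ne']
  have hval : ∀ z : ℝ, (avg fun x => ‖a' x z‖ ^ 2) = ‖z‖ ^ 2 := by
    intro z
    have h1 : ∀ x, ‖a' x z‖ ^ 2 = (‖z‖ ^ 2 * (√m)⁻¹ ^ 2) * ‖a x‖ ^ 2 := by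
      intro x
      rw [ha', norm_smul, norm_smul, mul_pow, mul_pow, norm_inv,
        Real.norm_of_nonneg (Real.sqrt_nonneg _), mul_assoc]
    rw [avg_congr h1, avg_mul_left, ← hm, mul_assoc, hsm, mul_one]
  have h2 := hL ℝ X levelBd_real hX I a' (fun z => (hval z).ge)
    (fun z => by rw [hval z, one_pow, one_mul]) θ u
  have h3 : ∀ (g : I → ℤˣ) (S : Finset I), ‖∑ x, walsh S x • a' (g * x) (u x)‖ ^ 2 =
      (√m)⁻¹ ^ 2 * ‖∑ x, (walsh S x * u x) • a (g * x)‖ ^ 2 := by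
    intro g S
    have h4 : ∑ x, walsh S x • a' (g * x) (u x) =
        (√m)⁻¹ • ∑ x, (walsh S x * u x) • a (g * x) := by
      rw [Finset.smul_sum]
      refine Finset.sum_congr rfl fun x _ => ?_
      rw [ha', smul_smul, smul_smul, smul_smul]
      congr 1
      ring
    rw [h4, norm_smul, mul_pow, norm_inv, Real.norm_of_nonneg (Real.sqrt_nonneg _)]
  have h5 : (avg fun g : I → ℤˣ => avg fun S : Finset I =>
      ‖∑ x, walsh S x • a' (g * x) (u x)‖ ^ 2) = (√m)⁻¹ ^ 2 *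
      avg fun g : I → ℤˣ => avg fun S : Finset I =>
        ‖∑ x, (walsh S x * u x) • a (g * x)‖ ^ 2 := by
    rw [← avg_mul_left]
    refine avg_congr fun g => ?_
    rw [← avg_mul_left]
    exact avg_congr fun S => h3 g S
  rw [h5, Real.norm_eq_abs, sq_abs] at h2
  simp only [smul_eq_mul] at h2
  calc (∑ i, sg (θ i) * wc {i} u) ^ 2 * m
      ≤ (L ^ 2 * ((√m)⁻¹ ^ 2 * avg fun g : I → ℤˣ => avg fun S : Finset I =>
        ‖∑ x, (walsh S x * u x) • a (g * x)‖ ^ 2)) * m := mul_le_mul_of_nonneg_right h2 hm0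
    _ = ((√m)⁻¹ ^ 2 * m) * (L ^ 2 * avg fun g : I → ℤˣ => avg fun S : Finset I =>
        ‖∑ x, (walsh S x * u x) • a (g * x)‖ ^ 2) := by ring
    _ = _ := by rw [hsm, one_mul]

end system

end Vale.Agent.P111.HM
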